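import Vale.Agent.P219.CH.Interfaces

/-!
P219: the smooth form of the inequality with a fraction `θ` of the sharp constant.
-/

namespace Vale.Agent.P219.CH

open MeasureTheory
open scoped ContDiff

/-- The smooth form with the constant `θ` times the sharp one. -/
def SobolevWith (n : ℕ) (θ : ℝ) : Prop :=
  ∀ G : Coeff n, IsCH G → ∀ K : Set (E n), IsCompact K → ∀ δ : ℝ, 0 < δ → ∃ L : ℝ, 0 ≤ L ∧
    ∀ f : E n → ℝ, ContDiff ℝ ∞ f → tsupport f ⊆ K → (∀ x, f x ∈ Set.Icc (0 : ℝ) 1) →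
      θ * profile n (∫ x, f x ∂vol G) ≤
        tvar G f + L * (∫ x, f x * (1 - f x) ∂vol G) + δ

theorem sobolevWith_one {n : ℕ} : SobolevWith n 1 ↔ SobolevStmt n := by
  simp [SobolevWith, SobolevStmt]

end Vale.Agent.P219.CH
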