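import Vale.Agent.P219.CH.Cert.Profile

/-!
P219: a profile for every dimension `n ≥ 5`, exact to exponential order: with `m = n - 1`,
`μ = m - 1`, `q = m r / μ` it is `K = r^(-μ) exp (μ Φ q)`, `Φ' q = (1 - √(1-q²)) / (2 q)`, so that
`K' = K (A - μ) / r` with `A (μ - A) = m² r² / 4` inside and `A = μ/2` outside.
-/

namespace Vale.Agent.P219.CH.Theta

open MeasureTheory Set Filter Topology

noncomputable section

/-- The derivative of `Φ`. -/
def slope (t : ℝ) : ℝ := t / (2 * (1 + Real.sqrt (1 - t ^ 2)) * max 1 (t ^ 2))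

/-- The exponent. -/
def Phi (q : ℝ) : ℝ := ∫ t in (0 : ℝ)..q, slope t

lemma continuous_slope : Continuous slope := by
  unfold slope
  refine continuous_id.div ?_ fun t => ?_
  · exact (continuous_const.mul (continuous_const.add ((continuous_const.sub
      (continuous_id.pow 2)).sqrt))).mul (continuous_const.max (continuous_id.pow 2))
  · have h1 := Real.sqrt_nonneg (1 - t ^ 2)
    have h2 : (1 : ℝ) ≤ max 1 (t ^ 2) := le_max_left _ _
    positivity

lemma hasDerivAt_Phi (q : ℝ) : HasDerivAt Phi (slope q) q :=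
  intervalIntegral.integral_hasDerivAt_right (continuous_slope.intervalIntegrable _ _)
    continuous_slope.aestronglyMeasurable.stronglyMeasurableAtFilter continuous_slope.continuousAt

lemma slope_in {t : ℝ} (h1 : t ^ 2 ≤ 1) : 2 * t * slope t = 1 - Real.sqrt (1 - t ^ 2) := by
  have hs := Real.sq_sqrt (sub_nonneg.2 h1)
  have h0 := Real.sqrt_nonneg (1 - t ^ 2)
  rw [slope, max_eq_left h1]
  field_simp
  linear_combination hs

lemma slope_out {t : ℝ} (h1 : 1 ≤ t) : slope t = 1 / (2 * t) := by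
  have h2 : (1 : ℝ) ≤ t ^ 2 := one_le_pow₀ h1
  rw [slope, max_eq_right h2, Real.sqrt_eq_zero_of_nonpos (by linarith)]
  field_simp
  ring

lemma slope_nonneg {t : ℝ} (h : 0 ≤ t) : 0 ≤ slope t := by
  have h1 := Real.sqrt_nonneg (1 - t ^ 2)
  have h2 : (1 : ℝ) ≤ max 1 (t ^ 2) := le_max_left _ _
  unfold slope; positivity

lemma Phi_nonneg {q : ℝ} (h : 0 ≤ q) : 0 ≤ Phi q :=
  intervalIntegral.integral_nonneg h fun _ ht => slope_nonneg ht.1

lemma Phi_one : Phi 1 = (1 - Real.log 2) / 2 := by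
  have e := intervalIntegral.integral_eq_sub_of_hasDerivAt_of_le (a := (0 : ℝ)) (b := 1)
    (f := fun t => (Real.log (1 + Real.sqrt (1 - t ^ 2)) - Real.sqrt (1 - t ^ 2)) / 2)
    (f' := slope) zero_le_one ?_ ?_ (continuous_slope.intervalIntegrable _ _)
  · rw [Phi, e]
    norm_num
    ring
  · have hc : Continuous fun t : ℝ => Real.sqrt (1 - t ^ 2) :=
      (continuous_const.sub (continuous_id.pow 2)).sqrt
    refine ((Continuous.log (continuous_const.add hc) fun t => ?_).sub hc).div_const _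
      |>.continuousOn
    exact (add_pos_of_pos_of_nonneg one_pos (Real.sqrt_nonneg (1 - t ^ 2))).ne'
  · intro t ht
    have ht2 : t ^ 2 < 1 := pow_lt_one₀ ht.1.le ht.2 two_ne_zero
    have h0 : 0 < Real.sqrt (1 - t ^ 2) := Real.sqrt_pos.2 (by linarith)
    have hs : HasDerivAt (fun t : ℝ => Real.sqrt (1 - t ^ 2)) (-t / Real.sqrt (1 - t ^ 2)) t := by
      have h := ((hasDerivAt_pow 2 t).const_sub (1 : ℝ)).sqrt (by linarith)
      refine h.congr_deriv ?_
      push_cast
      field_simp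
    refine ((((hs.const_add 1).log (by positivity)).sub hs).div_const 2).congr_deriv ?_
    rw [slope, max_eq_left ht2.le]
    field_simp
    ring

lemma Phi_out {q : ℝ} (h : 1 ≤ q) : Phi q = (1 - Real.log 2) / 2 + Real.log q / 2 := by
  rw [← Phi_one, Phi, Phi, ← intervalIntegral.integral_add_adjacent_intervals
    (continuous_slope.intervalIntegrable 0 1) (continuous_slope.intervalIntegrable 1 q)]
  congr 1
  calc ∫ t in (1 : ℝ)..q, slope t = ∫ t in (1 : ℝ)..q, (1 / 2) * (1 / t) := by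
        refine intervalIntegral.integral_congr fun t ht => ?_
        rw [uIcc_of_le h] at ht
        rw [slope_out ht.1]; ring
    _ = Real.log q / 2 := by
        rw [intervalIntegral.integral_const_mul,
          integral_one_div_of_pos one_pos (by linarith), div_one]
        ring

/-- The profile, `μ = n - 2`. -/
def K (n : ℕ) (r : ℝ) : ℝ :=
  Real.exp (((n : ℝ) - 2) * Phi (((n : ℝ) - 1) * r / ((n : ℝ) - 2))) / r ^ (n - 2)

/-- `r K' / K + μ`. -/
def A (n : ℕ) (r : ℝ) : ℝ :=
  ((n : ℝ) - 1) * r * slope (((n : ℝ) - 1) * r / ((n : ℝ) - 2))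

/-- The derivative of the profile. -/
def dK (n : ℕ) (r : ℝ) : ℝ := K n r / r * (A n r - ((n : ℝ) - 2))

/-- The coefficient of the squared area. -/
def coef (n : ℕ) : ℝ := 4 * (Real.exp 1 / 2) ^ ((n : ℝ) / 2)

variable {n : ℕ}

lemma hasDerivAt_K (hn : 5 ≤ n) {r : ℝ} (hr : 0 < r) : HasDerivAt (K n) (dK n r) r := by
  obtain ⟨k, rfl⟩ : ∃ k, n = k + 2 := ⟨n - 2, by omega⟩
  have hμ : (0 : ℝ) < ((k + 2 : ℕ) : ℝ) - 2 := by
    push_cast; simp only [add_sub_cancel_right]; exact_mod_cast (by omega : 0 < k)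
  have h := ((((hasDerivAt_Phi _).comp r ((((hasDerivAt_id r).const_mul
    (((k + 2 : ℕ) : ℝ) - 1)).div_const (((k + 2 : ℕ) : ℝ) - 2)))).const_mul
      (((k + 2 : ℕ) : ℝ) - 2)).exp).div (hasDerivAt_pow k r) (pow_ne_zero _ hr.ne')
  unfold dK A K
  simp only [Nat.add_sub_cancel]
  refine h.congr_deriv ?_
  obtain ⟨j, rfl⟩ : ∃ j, k = j + 1 := ⟨k - 1, by omega⟩
  simp only [Function.comp_apply, id_eq, mul_one, Nat.add_sub_cancel]
  push_cast at hμ ⊢
  field_simp
  ring

lemma A_bounds (hn : 5 ≤ n) {r : ℝ} (hr : 0 < r) : 0 ≤ A n r ∧ A n r ≤ ((n : ℝ) - 2) / 2 := by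
  have hn' : (5 : ℝ) ≤ n := by exact_mod_cast hn
  have hμ : (0 : ℝ) < (n : ℝ) - 2 := by linarith
  have hm : (0 : ℝ) < (n : ℝ) - 1 := by linarith
  set q := ((n : ℝ) - 1) * r / ((n : ℝ) - 2) with hq
  have hq0 : 0 < q := by positivity
  have e : A n r = ((n : ℝ) - 2) / 2 * (2 * q * slope q) := by
    rw [A, ← hq, hq]; field_simp
  have hb : 0 ≤ 2 * q * slope q ∧ 2 * q * slope q ≤ 1 := by
    rcases le_or_gt q 1 with h | h
    · rw [slope_in (pow_le_one₀ hq0.le h)]
      exact ⟨sub_nonneg.2 (Real.sqrt_le_one.2 (by nlinarith)),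
        sub_le_self _ (Real.sqrt_nonneg _)⟩
    · rw [slope_out h.le]; field_simp; norm_num
  rw [e]
  constructor
  · exact mul_nonneg (by positivity) hb.1
  · exact mul_le_of_le_one_right (by positivity) hb.2

lemma K_pos {r : ℝ} (hr : 0 < r) : 0 < K n r := div_pos (Real.exp_pos _) (pow_pos hr _)

lemma continuousOn_dK (hn : 5 ≤ n) : ContinuousOn (dK n) (Ioi 0) := by
  have hK : ContinuousOn (K n) (Ioi 0) :=
    fun r hr => (hasDerivAt_K hn hr).continuousAt.continuousWithinAt
  refine (hK.div continuousOn_id fun r hr => (ne_of_gt hr)).mul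
    (ContinuousOn.sub ?_ continuousOn_const)
  exact ((continuous_const.mul continuous_id).mul
    (continuous_slope.comp ((continuous_const.mul continuous_id).div_const _))).continuousOn

lemma tail_bound {E₁ μ j p r q b : ℝ} {k : ℕ} (hE : 0 ≤ E₁) (hμ : 0 < μ) (hj : 0 < j)
    (hp : 0 ≤ p) (hr : 0 < r) (hbern : j * (q - 1) ≤ b) (hsplit : p * b = q ^ (k + 1))
    (hrk : r ^ (k + 1) * ((μ + 1) / μ) ^ (k + 1) = q ^ (k + 1))
    (hexp : ((μ + 1) / μ) ^ k ≤ Real.exp 1) (hjb : μ / j * ((μ + 1) / μ) ≤ 2) :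
    E₁ * p / r / r ^ k * (μ * (q - 1)) ≤ 2 * (E₁ * Real.exp 1) := by
  have hc : 0 ≤ E₁ * (μ / j) := mul_nonneg hE (div_nonneg hμ.le hj.le)
  have hrk0 : 0 < r ^ (k + 1) := pow_pos hr _
  have e1 : E₁ * p / r / r ^ k * (μ * (q - 1)) =
      E₁ * (μ / j) * (p * (j * (q - 1))) / r ^ (k + 1) := by
    field_simp; ring
  have e2 : E₁ * (μ / j) * q ^ (k + 1) / r ^ (k + 1) =
      E₁ * (μ / j * ((μ + 1) / μ)) * ((μ + 1) / μ) ^ k := by
    rw [← hrk, pow_succ ((μ + 1) / μ)]; field_simp
  rw [e1]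
  refine (div_le_div_of_nonneg_right (mul_le_mul_of_nonneg_left
    (mul_le_mul_of_nonneg_left hbern hp) hc) hrk0.le).trans ?_
  rw [hsplit, e2]
  have h0 : 0 ≤ μ / j * ((μ + 1) / μ) := by positivity
  calc E₁ * (μ / j * ((μ + 1) / μ)) * ((μ + 1) / μ) ^ k
      ≤ E₁ * 2 * Real.exp 1 :=
        mul_le_mul (mul_le_mul_of_nonneg_left hjb hE) hexp (by positivity) (by positivity)
    _ = 2 * (E₁ * Real.exp 1) := by ring

/-- The kernel dominates `d² / r^(n-2)`. -/
lemma profQ_ge (hn : 5 ≤ n) {r d : ℝ} (hr : 0 < r) (hd : 0 ≤ d) (hd1 : d ≤ 1) :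
    d ^ 2 / r ^ (n - 2) ≤ profQ n (coef n) (K n) (dK n) r d := by
  obtain ⟨μ, hμd⟩ : ∃ μ, μ = (n : ℝ) - 2 := ⟨_, rfl⟩
  have hn' : (5 : ℝ) ≤ n := by exact_mod_cast hn
  have hμ : 3 ≤ μ := by linarith
  obtain ⟨q, hq⟩ : ∃ q, q = (μ + 1) * r / μ := ⟨_, rfl⟩
  have hq0 : 0 < q := by rw [hq]; positivity
  have hqd : ((n : ℝ) - 1) * r / ((n : ℝ) - 2) = q := by rw [hq, hμd]; ring
  have hrq : r ≤ q := by
    rw [hq, le_div_iff₀ (by linarith)]; nlinarith
  have hPhi := Phi_nonneg hq0.le
  set E := Real.exp (μ * Phi q) with hE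
  have hKE : K n r = E / r ^ (n - 2) := by rw [K, hqd, hE, hμd]
  have hA : A n r = (μ + 1) * r * slope q := by rw [A, hqd, hμd]; ring
  have hAq : A n r = μ / 2 * (2 * q * slope q) := by
    rw [hA, hq]; field_simp
  obtain ⟨hA0, hA1⟩ := A_bounds hn hr
  rw [← hμd] at hA1
  have hpow : 0 < r ^ (n - 2) := pow_pos hr _
  have key : profQ n (coef n) (K n) (dK n) r d =
      coef n + E / r / r ^ (n - 2) * (A n r + (μ - A n r) * d ^ 2 - (μ + 1) * r * d + d ^ 2) := by
    rw [profQ, dK, hKE, hμd]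
    field_simp
    ring
  rw [key]
  have hcoef : 0 ≤ coef n := by unfold coef; positivity
  rcases le_or_gt q 1 with h1 | h1
  · have hr1 : r ≤ 1 := hrq.trans h1
    have hEr : r ≤ E := hr1.trans (Real.one_le_exp (mul_nonneg (by linarith) hPhi))
    have hprod : A n r * (μ - A n r) = ((μ + 1) * r / 2) ^ 2 := by
      have hs := Real.sq_sqrt (sub_nonneg.2 (pow_le_one₀ hq0.le h1 (n := 2)))
      rw [hAq, slope_in (pow_le_one₀ hq0.le h1)]
      have : (μ + 1) * r = μ * q := by rw [hq]; field_simp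
      rw [this]
      linear_combination (-μ ^ 2 / 4) * hs
    have hmain : 0 ≤ A n r + (μ - A n r) * d ^ 2 - (μ + 1) * r * d := by
      have hpos : 0 < μ - A n r := by linarith
      refine nonneg_of_mul_nonneg_right ?_ hpos
      nlinarith [sq_nonneg ((μ - A n r) * d - (μ + 1) * r / 2)]
    have h3 : d ^ 2 / r ^ (n - 2) ≤ E / r / r ^ (n - 2) * d ^ 2 := by
      rw [div_mul_eq_mul_div]
      exact div_le_div_of_nonneg_right
        (le_mul_of_one_le_left (sq_nonneg d) ((one_le_div hr).2 hEr)) hpow.le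
    have h4 : 0 ≤ E / r / r ^ (n - 2) *
        (A n r + (μ - A n r) * d ^ 2 - (μ + 1) * r * d) := by positivity
    rw [mul_add]
    linarith
  · set E₁ := Real.exp (μ * ((1 - Real.log 2) / 2)) with hE₁
    have hEq : E = E₁ * q ^ (μ / 2) := by
      rw [hE, Phi_out h1.le, mul_add, Real.exp_add, Real.rpow_def_of_pos hq0, ← hE₁]
      congr 2; ring
    have hE₁1 : 1 ≤ E₁ := by
      refine Real.one_le_exp (mul_nonneg (by linarith) ?_)
      have := Real.log_two_lt_d9
      linarith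
    have hqq : q ≤ q ^ (μ / 2) := by
      conv_lhs => rw [← Real.rpow_one q]
      exact Real.rpow_le_rpow_of_exponent_le h1.le (by linarith)
    have hEr : r ≤ E := by
      rw [hEq]
      exact hrq.trans (hqq.trans (le_mul_of_one_le_left (by positivity) hE₁1))
    have hAo : A n r = μ / 2 := by rw [hAq, slope_out h1.le]; field_simp
    have hlow : -(μ * (q - 1)) ≤ A n r + (μ - A n r) * d ^ 2 - (μ + 1) * r * d := by
      have e : (μ + 1) * r = μ * q := by rw [hq]; field_simp
      rw [hAo, e]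
      nlinarith [mul_nonneg (sub_nonneg.2 hd1) (by nlinarith : (0 : ℝ) ≤ μ * q - μ / 2 * (1 + d))]
    -- the negative part is at most `coef n`
    have hneg : E / r / r ^ (n - 2) * (μ * (q - 1)) ≤ coef n := by
      set j := (μ + 2) / 2 with hj
      have hj1 : 1 ≤ j := by rw [hj]; linarith
      have hbern : j * (q - 1) ≤ q ^ j := by
        have := one_add_mul_self_le_rpow_one_add (s := q - 1) (by linarith) hj1
        rw [add_sub_cancel] at this
        linarith
      obtain ⟨k, hk⟩ : ∃ k, n = k + 2 := ⟨n - 2, by omega⟩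
      have hμk : μ = (k : ℝ) := by rw [hμd, hk]; push_cast; ring
      have hkn : n - 2 = k := by omega
      have hsplit : q ^ (μ / 2) * q ^ j = q ^ (k + 1) := by
        rw [← Real.rpow_add hq0, ← Real.rpow_natCast q (k + 1)]
        congr 1
        rw [hj, hμk]; push_cast; ring
      have hrk : r ^ (k + 1) * ((μ + 1) / μ) ^ (k + 1) = q ^ (k + 1) := by
        rw [← mul_pow, hq]; congr 1; ring
      have hexp : ((μ + 1) / μ) ^ k ≤ Real.exp 1 := by
        have : (μ + 1) / μ = 1 / μ + 1 := by field_simp; ring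
        rw [this]
        calc (1 / μ + 1) ^ k ≤ (Real.exp (1 / μ)) ^ k :=
              pow_le_pow_left₀ (by positivity) (Real.add_one_le_exp _) k
          _ = Real.exp 1 := by
              rw [← Real.exp_nat_mul, ← hμk]; congr 1; field_simp
      have hcE : coef n = 2 * (E₁ * Real.exp 1) := by
        have hnμ : (n : ℝ) = μ + 2 := by linarith
        rw [coef, hnμ, hE₁, Real.rpow_def_of_pos (by positivity),
          Real.log_div (Real.exp_pos 1).ne' two_ne_zero, Real.log_exp, ← Real.exp_add,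
          show (4 : ℝ) = 2 * Real.exp (Real.log 2) by rw [Real.exp_log two_pos]; norm_num,
          mul_assoc, ← Real.exp_add]
        congr 2; ring
      rw [hcE, hkn, hEq]
      have hE0 : 0 ≤ E₁ := by linarith
      have hj0 : 0 < j := by linarith
      have hjb : μ / j * ((μ + 1) / μ) ≤ 2 := by
        rw [show μ / j * ((μ + 1) / μ) = (μ + 1) / j by field_simp, div_le_iff₀ hj0, hj]
        linarith
      exact tail_bound hE0 (by linarith) hj0 (Real.rpow_nonneg hq0.le _) hr
        hbern hsplit hrk hexp hjb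
    have h3 : d ^ 2 / r ^ (n - 2) ≤ E / r / r ^ (n - 2) * d ^ 2 := by
      rw [div_mul_eq_mul_div]
      exact div_le_div_of_nonneg_right
        (le_mul_of_one_le_left (sq_nonneg d) ((one_le_div hr).2 hEr)) hpow.le
    have h4 := mul_le_mul_of_nonneg_left hlow (show 0 ≤ E / r / r ^ (n - 2) by positivity)
    rw [mul_neg] at h4
    rw [mul_add]
    linarith

/-- The profile, with price zero. -/
def pre (hn : 5 ≤ n) : PreProfile n where
  a := coef n
  a_nonneg := by unfold coef; positivity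
  g := fun _ => 0
  g_cont := continuous_const
  g_nonpos := fun _ _ => le_rfl
  K := K n
  dK := dK n
  hasDeriv := fun _ hr => hasDerivAt_K hn hr
  dK_cont := continuousOn_dK hn
  K_nonneg := fun _ hr => (K_pos hr).le
  dK_le := fun r hr => by
    refine mul_le_of_le_one_right (div_nonneg (K_pos hr).le hr.le) ?_
    have := (A_bounds hn hr).2
    have : (5 : ℝ) ≤ n := by exact_mod_cast hn
    linarith
  Q_nonneg := fun r d hr hd hd1 =>
    (div_nonneg (sq_nonneg d) (pow_pos hr _).le).trans (profQ_ge hn hr hd hd1)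
  pair := fun r c d hr hc hc1 hd hd1 => by
    have h1 := profQ_ge hn hr hc.le hc1
    have h2 := profQ_ge hn hr hd.le hd1
    rw [div_le_iff₀ (pow_pos hr _)] at h1 h2
    have e : r ^ (n - 1) = r * r ^ (n - 2) := by
      rw [show n - 1 = n - 2 + 1 by omega, pow_succ']
    rw [e]
    nlinarith [mul_le_mul_of_nonneg_left (add_le_add h1 h2) hr.le,
      mul_nonneg hr.le (sq_nonneg (c - d))]

end

end Vale.Agent.P219.CH.Theta
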