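import Vale.Agent.P219.CH.Main
import Vale.Agent.P219.CH.Theta.Field

/-!
P219: in every dimension `n ≥ 5` the inequality holds with `√(2/e) (4n)^(-1/n)` times the sharp
constant.
-/

namespace Vale.Agent.P219.CH.Theta

open MeasureTheory Set Vale.Agent.P219.CH.Core Vale.Agent.P219.CH.Core.Mini

noncomputable section

/-- The fraction of the sharp constant. -/
def theta (n : ℕ) : ℝ := Real.sqrt (2 / Real.exp 1) / (4 * (n : ℝ)) ^ (1 / (n : ℝ))

theorem theta_pow {n : ℕ} (hn : 5 ≤ n) : 0 < theta n ∧ (n : ℝ) * coef n * theta n ^ n = 1 := by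
  have hn0 : (0 : ℝ) < n := by exact_mod_cast (by omega : 0 < n)
  have hb : (0 : ℝ) < Real.exp 1 / 2 := by positivity
  refine ⟨div_pos (Real.sqrt_pos.2 (by positivity)) (by positivity), ?_⟩
  rw [theta, div_pow, one_div, Real.rpow_inv_natCast_pow (by positivity) (by omega),
    Real.sqrt_eq_rpow, ← Real.rpow_natCast, ← Real.rpow_mul (by positivity),
    show 2 / Real.exp 1 = (Real.exp 1 / 2)⁻¹ by rw [inv_div], Real.inv_rpow hb.le, coef]
  rw [show (1 : ℝ) / 2 * n = n / 2 by ring]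
  field_simp

theorem sobolevWith_theta {n : ℕ} (hn : 5 ≤ n) : SobolevWith n (theta n) := by
  obtain ⟨hθ, hpow⟩ := theta_pow hn
  refine sobolevWith_of_step hn (geoStmt n) (variationStmt n) hθ
    (a := coef n) (g := fun _ => (0 : ℝ)) (fun hn0 R A hR hA hdef hmain => ?_)
    (fun G hG Γ => step_of_approx hn (chordStmt n) (avgFieldStmt n) continuous_const
      (fun _ _ => le_rfl) ((pre hn).approx (by omega)) G hG Γ)
  obtain ⟨hp, -⟩ := profile_radius (show 1 ≤ n by omega) hR
  rw [hp] at hdef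
  have hg : gInt hn0 (fun _ => (0 : ℝ)) = 0 := by simp [gInt]
  rw [hg] at hmain
  have hw := omega_pos n
  have hc : 0 < coef n := by unfold coef; positivity
  obtain ⟨k, rfl⟩ : ∃ k, n = k + 2 := ⟨n - 2, by omega⟩
  simp only [show k + 2 - 1 = k + 1 from rfl, Nat.add_sub_cancel] at hdef hmain
  set θ := theta (k + 2)
  set N := ((k + 2 : ℕ) : ℝ)
  have hN : 0 < N := by positivity
  have h2 : A ^ 2 < (θ * (N * omega (k + 2) * R ^ (k + 1))) ^ 2 :=
    pow_lt_pow_left₀ hdef hA two_ne_zero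
  have h3 := mul_lt_mul_of_pos_left h2
    (show 0 < ((R / θ) ^ k)⁻¹ * coef (k + 2) by positivity)
  have e : ((R / θ) ^ k)⁻¹ * coef (k + 2) * (θ * (N * omega (k + 2) * R ^ (k + 1))) ^ 2 =
      N * omega (k + 2) * (omega (k + 2) * R ^ (k + 2)) * (N * coef (k + 2) * θ ^ (k + 2)) := by
    rw [div_pow]
    field_simp
    ring
  rw [e, hpow, mul_one] at h3
  linarith

end

end Vale.Agent.P219.CH.Theta
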